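import Vale.Agent.P147.Dir.Velocity
import Vale.Agent.P147.Cond.Reduction

/-!
P147: every escape event has a deterministic asymptotic direction, so the zero-one law
reduces to the coordinate axes.
-/

open MeasureTheory Filter Finset
open scoped Topology

namespace Vale.Agent.Results.P147.AsymptoticDirection

open Vale.Agent.P147.Cond Vale.Agent.P147.Dir

theorem result : ∀ (d k : ℕ) (μ : Measure (stdSimplex ℝ (Fin k))), IsProbabilityMeasure μ →
    ∀ v : Fin k → Fin d → ℤ, ∃ P : Measure (ℕ → Fin k), IsProbabilityMeasure P ∧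
      IsAnnealedLaw μ v P ∧
      (∀ (e : Fin d → ℝ) (B : Set (ℕ → Fin k)), MeasurableSet B →
        (∀ t, t ∈ B ↔ (fun i => t (i + 1)) ∈ B) →
        P (Escape v e ∩ B) = 0 ∨ P (Escape v e \ B) = 0) ∧
      (∀ l : Fin d → ℝ, P (Escape v l) ≠ 0 → ∃ u : Fin d → ℝ, ∑ j, l j * u j = 1 ∧
        P (Escape v l \ {t | ∀ j, Tendsto
          (fun n => (pos v t n j : ℝ) / ∑ i, l i * (pos v t n i : ℝ)) atTop (𝓝 (u j))}) = 0) ∧
      ((∀ (j : Fin d) (σ : ℝ), σ = 1 ∨ σ = -1 →
          P (Escape v (Pi.single j σ)) = 0 ∨ P (Escape v (Pi.single j σ)) = 1) →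
        ∀ l : Fin d → ℝ, P (Escape v l) = 0 ∨ P (Escape v l) = 1) ∧
      ((∀ i, ∀ᵐ p ∂μ, 0 < p.1 i) →
        (∀ j : Fin d, (∀ᵐ p ∂μ, 0 ≤ ∑ i, (p.1 i : ℝ) * (v i j : ℝ)) ∨
          ∀ᵐ p ∂μ, ∑ i, (p.1 i : ℝ) * (v i j : ℝ) ≤ 0) →
        ∀ l : Fin d → ℝ, P (Escape v l) = 0 ∨ P (Escape v l) = 1) := by
  intro d k μ hμ v
  have : NeZero k := ⟨fun h => by
    obtain ⟨p⟩ := nonempty_of_isProbabilityMeasure μ
    subst h
    simpa using p.2.2⟩
  refine ⟨law v μ, inferInstance, law_prefix v μ,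
    fun e B hB hinv => conditional_zero_one v μ (dot e) hB hinv,
    fun l hl => exists_direction v μ l hl, fun hax l => zero_one_of_axes v μ ?_ l,
    fun hpos hdr l => zero_one_of_axes v μ ?_ l⟩
  · intro j σ hσ
    exact hax j σ (by simpa using hσ)
  · intro j σ hσ
    refine zero_one_of_drift v μ hpos (dot (axis j σ)) ?_
    simp only [dot_axis, mul_left_comm _ σ, ← mul_sum]
    simp only [Set.mem_insert_iff, Set.mem_singleton_iff] at hσ
    rcases hσ with rfl | rfl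
    · simpa using hdr j
    · simpa [neg_nonneg] using (hdr j).symm

end Vale.Agent.Results.P147.AsymptoticDirection
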