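import Vale.Agent.P147.Cond.Isotropic
import Vale.Agent.P147.Cond.Reduction
import Vale.Agent.P147.Cond.OrbitSpan
import Vale.Agent.P147.Cond.SymDefs

/-!
P147: the directional zero-one law for symmetric elliptic iid environments.
-/

open MeasureTheory Filter

namespace Vale.Agent.Results.P147.SymmetricDirections

open Vale.Agent.P147.Cond

theorem result :
    ∀ (d k : ℕ) (μ : Measure (stdSimplex ℝ (Fin k))), IsProbabilityMeasure μ →
      ∀ v : Fin k → Fin d → ℤ,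
      (∃ P : Measure (ℕ → Fin k), IsProbabilityMeasure P ∧ IsAnnealedLaw μ v P) ∧
      (Elliptic μ → ∀ P : Measure (ℕ → Fin k), IsProbabilityMeasure P → IsAnnealedLaw μ v P →
      ∀ l : Fin d → ℝ,
      (∀ G g, SymmetryGroup μ v G g →
        ((∀ m, FixedUpToSign G g m →
          (∀ z, (∀ a ∈ G, ∑ j, l j * (g a z j : ℝ) = 0) → m z = 0) → m = 0) →
          P (Escape v l) = 0) ∧
        ((∀ m, FixedUpToSign G g m →
          let E := {t | Tendsto (fun n => m (pos v t n)) atTop atTop}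
          P E = 0 ∨ P E = 1) →
          P (Escape v l) = 0 ∨ P (Escape v l) = 1) ∧
        ((∀ m, FixedUpToSign G g m → (∀ᵐ p ∂μ, 0 ≤ ∑ i, (p.1 i : ℝ) * m (v i)) ∨
            ∀ᵐ p ∂μ, ∑ i, (p.1 i : ℝ) * m (v i) ≤ 0) →
          P (Escape v l) = 0 ∨ P (Escape v l) = 1)) ∧
      (UnitSteps v → 2 ≤ d →
        (∀ (π : Equiv.Perm (Fin k)) (g : (Fin d → ℤ) ≃+ (Fin d → ℤ)),
          (∀ i, v (π i) = g (v i)) → InvariantLaw μ π) →
        P (Escape v l) = 0) ∧
      (UnitSteps v → 3 ≤ d → ∀ a₀ : Fin d,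
        (∀ (π : Equiv.Perm (Fin k)) (g : (Fin d → ℤ) ≃+ (Fin d → ℤ)),
          (∀ i, v (π i) = g (v i)) → (∀ z, g z a₀ = z a₀) → InvariantLaw μ π) →
        (l a₀ = 0 → P (Escape v l) = 0) ∧
        ((P {t | Tendsto (fun n => (pos v t n a₀ : ℝ)) atTop atTop} = 0 ∨
            P {t | Tendsto (fun n => (pos v t n a₀ : ℝ)) atTop atBot} = 0) →
          P (Escape v l) = 0 ∨ P (Escape v l) = 1) ∧
        ((∀ᵐ p ∂μ, 0 ≤ ∑ i, (p.1 i : ℝ) * (v i a₀ : ℝ)) →
          P (Escape v l) = 0 ∨ P (Escape v l) = 1))) := by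
  intro d k μ hμ v
  have : NeZero k := ⟨fun h => by
    obtain ⟨p⟩ := nonempty_of_isProbabilityMeasure μ
    subst h
    simpa using p.2.2⟩
  refine ⟨⟨law v μ, inferInstance, law_prefix v μ⟩, fun hpos P hP ha l => ?_⟩
  have hlaw := law_unique v μ ha
  subst hlaw
  rw [escape_eq]
  refine ⟨fun G g h => ⟨fun hspan =>
      no_escape_of_orbit v μ hpos G h.1 h.2.1 g h.2.2.1 h.2.2.2.1 h.2.2.2.2 (dot l) hspan,
    fun hfix => zero_one_of_invariant v μ hpos G h.1 h.2.1 g h.2.2.1 h.2.2.2.1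
      h.2.2.2.2 hfix (dot l),
    fun hdr => zero_one_of_invariant_drift v μ hpos G h.1 h.2.1 g h.2.2.1 h.2.2.2.1
      h.2.2.2.2 hdr (dot l)⟩,
    fun hv hd hiso => no_escape_isotropic v μ hd hv.1 hv.2 hpos hiso (dot l),
    fun hv hd a₀ hiso => ?_⟩
  have h := transverse_axis v μ hd a₀ hv.1 hv.2 hpos hiso (dot l)
  refine ⟨fun hl => h.1 ?_, h.2, fun hdr => zero_one_transverse v μ hd a₀ hv.1 hv.2 hpos hiso hdr (dot l)⟩
  simp [dot, Pi.single_apply, hl]

end Vale.Agent.Results.P147.SymmetricDirections
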