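import Vale.Agent.P147.Bal.Apply
import Vale.Agent.P147.Bal.Axis
import Vale.Agent.P147.Bal.Pair
import Vale.Agent.P147.Cond.Isotropic

/-!
P147: the directional zero-one law with balanced transverse coordinates and arbitrary drift in
the others; and when the randomness of a row is confined to one axis or to pairs of steps.
-/

open MeasureTheory Filter
open scoped Classical

namespace Vale.Agent.Results.P147.TransverseBalance

open Vale.Agent.P147.Cond Vale.Agent.P147.Bal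

theorem result :
    (∀ (d k : ℕ) (μ : Measure (stdSimplex ℝ (Fin k))), IsProbabilityMeasure μ →
      ∀ v : Fin k → Fin d → ℤ,
      (∃ P : Measure (ℕ → Fin k), IsProbabilityMeasure P ∧ IsAnnealedLaw μ v P) ∧
      (Elliptic μ → ∀ P : Measure (ℕ → Fin k), IsProbabilityMeasure P → IsAnnealedLaw μ v P →
      ∀ s κ : ℝ, s < 1 / 4 → 0 < κ →
      ((∃ (m : ℕ) (L : Fin m → (Fin d → ℤ) →+ ℝ), ∀ᵐ p ∂μ,
          (∀ j, ∑ i, (p.1 i : ℝ) * L j (v i) = 0) ∧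
          κ ≤ ∑ i, (p.1 i : ℝ) * ∑ j, L j (v i) ^ 2 ∧
          ∀ x : Fin m → ℝ, ∑ i, (p.1 i : ℝ) * (∑ j, x j * L j (v i)) ^ 2 ≤
            s * (∑ j, x j ^ 2) * ∑ i, (p.1 i : ℝ) * ∑ j, L j (v i) ^ 2) →
        (∀ B : Set (ℕ → Fin k), MeasurableSet B → (∀ t, t ∈ B ↔ (fun i => t (i + 1)) ∈ B) →
          P B = 0 ∨ P B = 1) ∧
        ∀ l : Fin d → ℝ, P (Escape v l) = 0 ∨ P (Escape v l) = 1) ∧
      (UnitSteps v → (∃ w : Fin d → ℝ, (∀ j, 0 ≤ w j) ∧ ∀ᵐ p ∂μ,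
          κ ≤ ∑ j, w j * ∑ i, (p.1 i : ℝ) * (v i j : ℝ) ^ 2 ∧
          ∀ j, w j ≠ 0 → ∑ i, (p.1 i : ℝ) * (v i j : ℝ) = 0 ∧
            w j * ∑ i, (p.1 i : ℝ) * (v i j : ℝ) ^ 2 ≤
              s * ∑ j', w j' * ∑ i, (p.1 i : ℝ) * (v i j' : ℝ) ^ 2) →
        (∀ B : Set (ℕ → Fin k), MeasurableSet B → (∀ t, t ∈ B ↔ (fun i => t (i + 1)) ∈ B) →
          P B = 0 ∨ P B = 1) ∧
        ∀ l : Fin d → ℝ, P (Escape v l) = 0 ∨ P (Escape v l) = 1)) ∧
      (∀ a : Fin d → ℤ, a ≠ 0 → ∀ i₀ : Fin k, v i₀ ≠ a → v i₀ ≠ -a →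
        (∀ᵐ p ∂μ, 0 < p.1 i₀) →
        (∃ r : Fin k → ℝ, ∀ᵐ p ∂μ, ∀ i, v i ≠ a → v i ≠ -a →
          (p.1 i : ℝ) = r i * ∑ j ∈ Finset.univ.filter (fun j => v j ≠ a ∧ v j ≠ -a), (p.1 j : ℝ)) →
        ∀ P : Measure (ℕ → Fin k), IsProbabilityMeasure P → IsAnnealedLaw μ v P →
        ∀ l : Fin d → ℝ, P (Escape v l) = 0 ∨ P (Escape v l) = 1)) ∧
    (∀ (d : ℕ) (μ : Measure (Vale.Agent.P147.Dir d → ℝ)), IsProbabilityMeasure μ →
      (∀ᵐ p ∂μ, (∀ e, 0 ≤ p e) ∧ ∑ e, p e = 1) → ∀ v : Vale.Agent.P147.Site d, v ≠ 0 →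
      (∀ e : Vale.Agent.P147.Dir d, ∃ q : ℝ, ∀ᵐ p ∂μ,
        (∑ e' : Vale.Agent.P147.Dir d,
          if Vale.Agent.P147.vec e' = Vale.Agent.P147.vec e ∨
              Vale.Agent.P147.vec e' = Vale.Agent.P147.vec e + v ∨
              Vale.Agent.P147.vec e' = Vale.Agent.P147.vec e - v
            then p e' else 0) = q) →
      (∃ P : Measure (ℕ → Vale.Agent.P147.Site d),
          IsProbabilityMeasure P ∧ Vale.Agent.P147.IsAnnealed μ P) ∧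
        ∀ P : Measure (ℕ → Vale.Agent.P147.Site d), Vale.Agent.P147.IsAnnealed μ P →
          ∀ l : Fin d → ℝ,
            P {X | Tendsto (fun n => ∑ i, l i * (X n i : ℝ)) atTop atTop} = 0 ∨
              P {X | Tendsto (fun n => ∑ i, l i * (X n i : ℝ)) atTop atTop} = 1) := by
  refine ⟨?_, fun d μ hμ hrow v hv hdet =>
    Vale.Agent.P147.Pairing.zero_one_pairs μ hrow v hv hdet⟩
  intro d k μ hμ v
  have : NeZero k := ⟨fun h => by
    obtain ⟨p⟩ := nonempty_of_isProbabilityMeasure μ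
    subst h
    simpa using p.2.2⟩
  refine ⟨⟨law v μ, inferInstance, law_prefix v μ⟩, fun hpos P hP ha s κ hs hκ => ?_,
    fun a ha i₀ h1 h2 hpos ⟨r, hr⟩ P hP hlaw l => ?_⟩
  rotate_left
  · have hlaw' := law_unique v μ hlaw
    subst hlaw'
    exact zero_one_axis μ ha i₀ ⟨h1, h2⟩ hpos hr l
  have hlaw := law_unique v μ ha
  subst hlaw
  refine ⟨?_, ?_⟩
  · rintro ⟨m, L, hrow⟩
    have h : ∀ B : Set (ℕ → Fin k), MeasurableSet B →
        (∀ t, t ∈ B ↔ (fun i => t (i + 1)) ∈ B) → law v μ B = 0 ∨ law v μ B = 1 :=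
      fun B hB hinv => zero_one_balanced v μ L hs hκ hpos hrow hB hinv
    exact ⟨h, escape_zero_one v μ h⟩
  · rintro hv ⟨w, hw, hrow⟩
    have h : ∀ B : Set (ℕ → Fin k), MeasurableSet B →
        (∀ t, t ∈ B ↔ (fun i => t (i + 1)) ∈ B) → law v μ B = 0 ∨ law v μ B = 1 :=
      fun B hB hinv => zero_one_coordinates v μ hv w hw hs hκ hpos hrow hB hinv
    exact ⟨h, escape_zero_one v μ h⟩

end Vale.Agent.Results.P147.TransverseBalance
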