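import Vale.Agent.P147.Rec.Main
import Vale.Agent.P147.Three.Assemble
import Vale.Agent.P147.Speed.Velocity
import Vale.Agent.P147.Cond.Isotropic

/-!
P147: in dimension at least four a nonzero limiting velocity of an iid elliptic walk is almost
sure and decides every escape event; in dimension at least three there is at most one such velocity.
-/

open MeasureTheory Filter
open scoped Topology

namespace Vale.Agent.Results.P147.VelocityForcesLaw

open Vale.Agent.P147.Cond Vale.Agent.P147.Speed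

theorem result :
    ∀ (d k : ℕ) (μ : Measure (stdSimplex ℝ (Fin k))), IsProbabilityMeasure μ →
      ∀ v : Fin k → Fin d → ℤ,
      (∃ P : Measure (ℕ → Fin k), IsProbabilityMeasure P ∧ IsAnnealedLaw μ v P) ∧
      ((∀ i, ∀ᵐ p ∂μ, 0 < p.1 i) →
        (∀ j, (∃ i, v i = Pi.single j 1) ∧ ∃ i, v i = Pi.single j (-1)) →
        ∀ P : Measure (ℕ → Fin k), IsProbabilityMeasure P → IsAnnealedLaw μ v P →
        ∀ w : Fin d → ℝ, w ≠ 0 →
          0 < P {t | ∀ j, Tendsto (fun n : ℕ => (pos v t n j : ℝ) / n) atTop (𝓝 (w j))} →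
          (4 ≤ d →
            P {t | ∀ j, Tendsto (fun n : ℕ => (pos v t n j : ℝ) / n) atTop (𝓝 (w j))} = 1 ∧
              ∀ l : Fin d → ℝ, P (Escape v l) = if 0 < ∑ j, l j * w j then 1 else 0) ∧
          (3 ≤ d → ∀ w' : Fin d → ℝ, w' ≠ 0 →
            0 < P {t | ∀ j, Tendsto (fun n : ℕ => (pos v t n j : ℝ) / n) atTop (𝓝 (w' j))} →
            w = w')) := by
  intro d k μ hμ v
  have : NeZero k := ⟨fun h => by
    obtain ⟨p⟩ := nonempty_of_isProbabilityMeasure μ
    subst h
    simpa using p.2.2⟩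
  refine ⟨⟨law v μ, inferInstance, law_prefix v μ⟩, fun hell hunit P hP ha w hw hp => ?_⟩
  have hlaw := law_unique v μ ha
  subst hlaw
  exact ⟨fun hd => Vale.Agent.P147.Rec.velocity_is_sure v μ hd hell hunit hw hp.ne',
    fun hd w' hw' hp' =>
      Vale.Agent.P147.Three.velocity_unique v μ hd hell hunit hw hw' hp.ne' hp'.ne'⟩

end Vale.Agent.Results.P147.VelocityForcesLaw
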